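import Vale.Agent.P154.S.SIdentR
import Vale.Agent.P154.S.TLink
import Vale.Agent.P154.S.TCT1x00
import Vale.Agent.P154.S.TCT1x01
import Vale.Agent.P154.S.TCT1x02
import Vale.Agent.P154.S.TCT1x03
import Vale.Agent.P154.S.TCT1x04
import Vale.Agent.P154.S.TCT2x00
import Vale.Agent.P154.S.TCT2x01
import Vale.Agent.P154.S.TCT2x02
import Vale.Agent.P154.S.TCT2x03
import Vale.Agent.P154.S.TCT2x04
import Vale.Agent.P154.S.TCT2x05
import Vale.Agent.P154.S.TCT2x06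
import Vale.Agent.P154.S.TCT2x07
import Vale.Agent.P154.S.TCT2x08
import Vale.Agent.P154.S.TCT2x09
import Vale.Agent.P154.S.TCT2x10
import Vale.Agent.P154.S.TCT2x11
import Vale.Agent.P154.S.TCT2x12
import Vale.Agent.P154.S.TCT2x13
import Vale.Agent.P154.S.TCT2x14
import Vale.Agent.P154.S.TCT2x15
import Vale.Agent.P154.S.TCT2x16
import Vale.Agent.P154.S.TCT2x17
import Vale.Agent.P154.S.TCT2x18
import Vale.Agent.P154.S.TCT2x19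

/-! The positivity certificates on `simplex x simplex` for `q = 4`. -/

namespace Vale.Agent.P154Q

open Vale.Agent.P154.Refl Vale.Agent.P154K

theorem kT1 : chunkT BS1 10 parts10 dvecS1 FLS1 0 (10 + 1) = true :=
  (chunkT_glue BS1 10 parts10 dvecS1 FLS1 5 6 (chunkT_glue BS1 10 parts10 dvecS1 FLS1 3 2 (chunkT_glue BS1 10 parts10 dvecS1 FLS1 2 1 (chunkT_glue BS1 10 parts10 dvecS1 FLS1 1 1 kT1_0 kT1_1) kT1_2) kT1_3) kT1_5)

theorem kT2_0 : chunkT BS2 12 parts12 dvecS2 FLS2 0 1 = true :=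
  chunkT_of_T2 BS2 12 parts12 dvecS2 FLS2 0 (chunkT2_glue BS2 12 parts12 dvecS2 FLS2 0 7 6 (chunkT2_glue BS2 12 parts12 dvecS2 FLS2 0 4 3 (chunkT2_glue BS2 12 parts12 dvecS2 FLS2 0 2 2 kT2_0_0 kT2_0_2) kT2_0_4) kT2_0_7)

theorem kT2_1 : chunkT BS2 12 parts12 dvecS2 FLS2 1 1 = true :=
  chunkT_of_T2 BS2 12 parts12 dvecS2 FLS2 1 (chunkT2_glue BS2 12 parts12 dvecS2 FLS2 1 5 8 (chunkT2_glue BS2 12 parts12 dvecS2 FLS2 1 2 3 kT2_1_0 kT2_1_2) kT2_1_5)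

theorem kT2_2 : chunkT BS2 12 parts12 dvecS2 FLS2 2 1 = true :=
  chunkT_of_T2 BS2 12 parts12 dvecS2 FLS2 2 (chunkT2_glue BS2 12 parts12 dvecS2 FLS2 2 5 8 (chunkT2_glue BS2 12 parts12 dvecS2 FLS2 2 2 3 kT2_2_0 kT2_2_2) kT2_2_5)

theorem kT2_3 : chunkT BS2 12 parts12 dvecS2 FLS2 3 1 = true :=
  chunkT_of_T2 BS2 12 parts12 dvecS2 FLS2 3 (chunkT2_glue BS2 12 parts12 dvecS2 FLS2 3 3 10 kT2_3_0 kT2_3_3)

theorem kT2_4 : chunkT BS2 12 parts12 dvecS2 FLS2 4 1 = true :=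
  chunkT_of_T2 BS2 12 parts12 dvecS2 FLS2 4 (chunkT2_glue BS2 12 parts12 dvecS2 FLS2 4 3 10 kT2_4_0 kT2_4_3)

theorem kT2_5 : chunkT BS2 12 parts12 dvecS2 FLS2 5 1 = true :=
  chunkT_of_T2 BS2 12 parts12 dvecS2 FLS2 5 (chunkT2_glue BS2 12 parts12 dvecS2 FLS2 5 3 10 kT2_5_0 kT2_5_3)

theorem kT2 : chunkT BS2 12 parts12 dvecS2 FLS2 0 (12 + 1) = true :=
  (chunkT_glue BS2 12 parts12 dvecS2 FLS2 10 3 (chunkT_glue BS2 12 parts12 dvecS2 FLS2 8 2 (chunkT_glue BS2 12 parts12 dvecS2 FLS2 7 1 (chunkT_glue BS2 12 parts12 dvecS2 FLS2 6 1 (chunkT_glue BS2 12 parts12 dvecS2 FLS2 5 1 (chunkT_glue BS2 12 parts12 dvecS2 FLS2 4 1 (chunkT_glue BS2 12 parts12 dvecS2 FLS2 3 1 (chunkT_glue BS2 12 parts12 dvecS2 FLS2 2 1 (chunkT_glue BS2 12 parts12 dvecS2 FLS2 1 1 kT2_0 kT2_1) kT2_2) kT2_3) kT2_4) kT2_5) kT2_6) kT2_7) kT2_8) kT2_10)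

theorem J1S_cert (p r : V 4) (hp : InSimplex p) (hr : InSimplex r) :
    0 ≤ diagR dvecS1 (MsL parts10 p) (MsL parts10 r) + rkR FLS1 (MsL parts10 p) (MsL parts10 r) :=
  certT BS1 10 BS1_pos parts10 SA.deg10 dvecS1 FLS1 kT1s kT1 p r hp hr

theorem J2S_cert (p r : V 4) (hp : InSimplex p) (hr : InSimplex r) :
    0 ≤ diagR dvecS2 (MsL parts12 p) (MsL parts12 r) + rkR FLS2 (MsL parts12 p) (MsL parts12 r) :=
  certT BS2 12 BS2_pos parts12 deg12 dvecS2 FLS2 kT2s kT2 p r hp hr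

theorem gS_cert (p : V 4) (hp : InSimplex p) : 0 ≤ linR vS1g (MsL parts10 p) :=
  certPK BS1 10 BS1_pos parts10 SA.deg10 vS1g kgT p hp

theorem hS_cert (p : V 4) (hp : InSimplex p) : 0 ≤ linR vS2h (MsL parts12 p) :=
  certPK BS2 12 BS2_pos parts12 deg12 vS2h khT p hp

end Vale.Agent.P154Q
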