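import Vale.Agent.P154.S.TKDefs

namespace Vale.Agent.P154K

open Vale.Agent.P154Q

set_option maxRecDepth 1000000 in
theorem idT1all0 :
    (((idZ BS1 10 parts10 (smulV 24 (degSel 0 parts10 fvecS1)) (hV 0 0 0 0 0)) &&
    ((idZ BS1 10 parts10 (smulV 24 (degSel 1 parts10 fvecS1)) (hV 7500 0 0 0 0)) &&
    ((idZ BS1 10 parts10 (smulV 24 (degSel 2 parts10 fvecS1)) (hV 0 (-543736) 0 0 0)) &&
    ((idZ BS1 10 parts10 (smulV 24 (degSel 3 parts10 fvecS1)) (hV 0 6467200 0 0 0)) &&
    ((idZ BS1 10 parts10 (smulV 24 (degSel 4 parts10 fvecS1)) (hV 0 (-44078464) 0 0 0)) &&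
    ((idZ BS1 10 parts10 (smulV 24 (degSel 5 parts10 fvecS1)) (hV 0 189256192 0 0 0)) &&
    ((idZ BS1 10 parts10 (smulV 24 (degSel 6 parts10 fvecS1)) (hV 0 (-529299456) 0 0 0)) &&
    ((idZ BS1 10 parts10 (smulV 24 (degSel 7 parts10 fvecS1)) (hV 0 960839680 0 0 0)) &&
    ((idZ BS1 10 parts10 (smulV 24 (degSel 8 parts10 fvecS1)) (hV 0 (-1087143936) 0 0 0)) &&
    ((idZ BS1 10 parts10 (smulV 24 (degSel 9 parts10 fvecS1)) (hV 0 692191232 0 0 0)) &&
    ((idZ BS1 10 parts10 (smulV 24 (degSel 10 parts10 fvecS1)) (hV 0 (-187695104) 0 0 0)) &&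
    ((allLt BS1 (sPK 10 parts10)) &&
    (rowZ BS1 10 (UsK BS1 10 parts10) (sPK 10 parts10) vS1g)))))))))))))) = true := by decide +kernel

theorem idT1_0 : idZ BS1 10 parts10 (smulV 24 (degSel 0 parts10 fvecS1)) (hV 0 0 0 0 0) = true := andL idT1all0

theorem idT1_1 : idZ BS1 10 parts10 (smulV 24 (degSel 1 parts10 fvecS1)) (hV 7500 0 0 0 0) = true := andL (andR idT1all0)

theorem idT1_2 : idZ BS1 10 parts10 (smulV 24 (degSel 2 parts10 fvecS1)) (hV 0 (-543736) 0 0 0) = true := andL (andR (andR idT1all0))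

theorem idT1_3 : idZ BS1 10 parts10 (smulV 24 (degSel 3 parts10 fvecS1)) (hV 0 6467200 0 0 0) = true := andL (andR (andR (andR idT1all0)))

theorem idT1_4 : idZ BS1 10 parts10 (smulV 24 (degSel 4 parts10 fvecS1)) (hV 0 (-44078464) 0 0 0) = true := andL (andR (andR (andR (andR idT1all0))))

theorem idT1_5 : idZ BS1 10 parts10 (smulV 24 (degSel 5 parts10 fvecS1)) (hV 0 189256192 0 0 0) = true := andL (andR (andR (andR (andR (andR idT1all0)))))

theorem idT1_6 : idZ BS1 10 parts10 (smulV 24 (degSel 6 parts10 fvecS1)) (hV 0 (-529299456) 0 0 0) = true := andL (andR (andR (andR (andR (andR (andR idT1all0))))))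

theorem idT1_7 : idZ BS1 10 parts10 (smulV 24 (degSel 7 parts10 fvecS1)) (hV 0 960839680 0 0 0) = true := andL (andR (andR (andR (andR (andR (andR (andR idT1all0)))))))

theorem idT1_8 : idZ BS1 10 parts10 (smulV 24 (degSel 8 parts10 fvecS1)) (hV 0 (-1087143936) 0 0 0) = true := andL (andR (andR (andR (andR (andR (andR (andR (andR idT1all0))))))))

theorem idT1_9 : idZ BS1 10 parts10 (smulV 24 (degSel 9 parts10 fvecS1)) (hV 0 692191232 0 0 0) = true := andL (andR (andR (andR (andR (andR (andR (andR (andR (andR idT1all0)))))))))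

theorem idT1_10 : idZ BS1 10 parts10 (smulV 24 (degSel 10 parts10 fvecS1)) (hV 0 (-187695104) 0 0 0) = true := andL (andR (andR (andR (andR (andR (andR (andR (andR (andR (andR idT1all0))))))))))

theorem kT1s : allLt BS1 (sPK 10 parts10) = true := andL (andR (andR (andR (andR (andR (andR (andR (andR (andR (andR (andR idT1all0)))))))))))

theorem kgT : rowZ BS1 10 (UsK BS1 10 parts10) (sPK 10 parts10) vS1g = true := (andR (andR (andR (andR (andR (andR (andR (andR (andR (andR (andR (andR idT1all0))))))))))))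

end Vale.Agent.P154K
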