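import Vale.Agent.P154.S.TIdS1

namespace Vale.Agent.P154K

open Vale.Agent.P154Q

set_option maxRecDepth 1000000 in
theorem idT2all0 :
    (((idZ BS2 12 parts12 (smulV 24 (degSel 0 parts12 fvecS2)) (hV 0 0 0 0 0)) &&
    ((idZ BS2 12 parts12 (smulV 24 (degSel 1 parts12 fvecS2)) (hV (-703125000) 0 0 0 0)) &&
    ((idZ BS2 12 parts12 (smulV 24 (degSel 2 parts12 fvecS2)) (hV 31319941608 (-83519844288) 0 0 0)) &&
    ((idZ BS2 12 parts12 (smulV 24 (degSel 3 parts12 fvecS2)) (hV (-418684357242) 1116491619312 5327370970200 0 0)) &&
    ((idZ BS2 12 parts12 (smulV 24 (degSel 4 parts12 fvecS2)) (hV 3223723994910 (-3882018031044) (-86532735787200) (-12572211436576) 0)) &&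
    ((idZ BS2 12 parts12 (smulV 24 (degSel 5 parts12 fvecS2)) (hV (-15846298787052) (-19262867942304) 719008019355744 164052439220736 (-167521457942784))) &&
    ((idZ BS2 12 parts12 (smulV 24 (degSel 6 parts12 fvecS2)) (hV 52152751832832 221767234600320 (-3732709626554112) (-962243305300992) 2391530933164032)) &&
    ((idZ BS2 12 parts12 (smulV 24 (degSel 7 parts12 fvecS2)) (hV (-117251497977984) (-898640460125184) 12848702416809984 3230162990399488 (-14924971122868224))) &&
    ((idZ BS2 12 parts12 (smulV 24 (degSel 8 parts12 fvecS2)) (hV 180213648334848 2029621928954880 (-29833200266526720) (-6693844420927488) 52075521828126720)) &&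
    ((idZ BS2 12 parts12 (smulV 24 (degSel 9 parts12 fvecS2)) (hV (-185885526601728) (-2765465479532544) 46398047312019456 8696427245699072 (-108780271052783616))) &&
    ((idZ BS2 12 parts12 (smulV 24 (degSel 10 parts12 fvecS2)) (hV 122843131084800 2252268955041792 (-46606315410063360) (-6879601701158912) 135202382889615360)) &&
    ((idZ BS2 12 parts12 (smulV 24 (degSel 11 parts12 fvecS2)) (hV (-46944836075520) (-1006318111358976) 27464433970839552 3017344909049856 (-92117340936732672))) &&
    ((idZ BS2 12 parts12 (smulV 24 (degSel 12 parts12 fvecS2)) (hV 7883247845376 188791528095744 (-7224172095209472) (-559502726266880) 26442681802555392)) &&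
    ((allLt BS2 (sPK 12 parts12)) &&
    (rowZ BS2 12 (UsK BS2 12 parts12) (sPK 12 parts12) vS2h)))))))))))))))) = true := by decide +kernel

theorem idT2_0 : idZ BS2 12 parts12 (smulV 24 (degSel 0 parts12 fvecS2)) (hV 0 0 0 0 0) = true := andL idT2all0

theorem idT2_1 : idZ BS2 12 parts12 (smulV 24 (degSel 1 parts12 fvecS2)) (hV (-703125000) 0 0 0 0) = true := andL (andR idT2all0)

theorem idT2_2 : idZ BS2 12 parts12 (smulV 24 (degSel 2 parts12 fvecS2)) (hV 31319941608 (-83519844288) 0 0 0) = true := andL (andR (andR idT2all0))

theorem idT2_3 : idZ BS2 12 parts12 (smulV 24 (degSel 3 parts12 fvecS2)) (hV (-418684357242) 1116491619312 5327370970200 0 0) = true := andL (andR (andR (andR idT2all0)))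

theorem idT2_4 : idZ BS2 12 parts12 (smulV 24 (degSel 4 parts12 fvecS2)) (hV 3223723994910 (-3882018031044) (-86532735787200) (-12572211436576) 0) = true := andL (andR (andR (andR (andR idT2all0))))

theorem idT2_5 : idZ BS2 12 parts12 (smulV 24 (degSel 5 parts12 fvecS2)) (hV (-15846298787052) (-19262867942304) 719008019355744 164052439220736 (-167521457942784)) = true := andL (andR (andR (andR (andR (andR idT2all0)))))

theorem idT2_6 : idZ BS2 12 parts12 (smulV 24 (degSel 6 parts12 fvecS2)) (hV 52152751832832 221767234600320 (-3732709626554112) (-962243305300992) 2391530933164032) = true := andL (andR (andR (andR (andR (andR (andR idT2all0))))))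

theorem idT2_7 : idZ BS2 12 parts12 (smulV 24 (degSel 7 parts12 fvecS2)) (hV (-117251497977984) (-898640460125184) 12848702416809984 3230162990399488 (-14924971122868224)) = true := andL (andR (andR (andR (andR (andR (andR (andR idT2all0)))))))

theorem idT2_8 : idZ BS2 12 parts12 (smulV 24 (degSel 8 parts12 fvecS2)) (hV 180213648334848 2029621928954880 (-29833200266526720) (-6693844420927488) 52075521828126720) = true := andL (andR (andR (andR (andR (andR (andR (andR (andR idT2all0))))))))

theorem idT2_9 : idZ BS2 12 parts12 (smulV 24 (degSel 9 parts12 fvecS2)) (hV (-185885526601728) (-2765465479532544) 46398047312019456 8696427245699072 (-108780271052783616)) = true := andL (andR (andR (andR (andR (andR (andR (andR (andR (andR idT2all0)))))))))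

theorem idT2_10 : idZ BS2 12 parts12 (smulV 24 (degSel 10 parts12 fvecS2)) (hV 122843131084800 2252268955041792 (-46606315410063360) (-6879601701158912) 135202382889615360) = true := andL (andR (andR (andR (andR (andR (andR (andR (andR (andR (andR idT2all0))))))))))

theorem idT2_11 : idZ BS2 12 parts12 (smulV 24 (degSel 11 parts12 fvecS2)) (hV (-46944836075520) (-1006318111358976) 27464433970839552 3017344909049856 (-92117340936732672)) = true := andL (andR (andR (andR (andR (andR (andR (andR (andR (andR (andR (andR idT2all0)))))))))))

theorem idT2_12 : idZ BS2 12 parts12 (smulV 24 (degSel 12 parts12 fvecS2)) (hV 7883247845376 188791528095744 (-7224172095209472) (-559502726266880) 26442681802555392) = true := andL (andR (andR (andR (andR (andR (andR (andR (andR (andR (andR (andR (andR idT2all0))))))))))))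

theorem kT2s : allLt BS2 (sPK 12 parts12) = true := andL (andR (andR (andR (andR (andR (andR (andR (andR (andR (andR (andR (andR (andR idT2all0)))))))))))))

theorem khT : rowZ BS2 12 (UsK BS2 12 parts12) (sPK 12 parts12) vS2h = true := (andR (andR (andR (andR (andR (andR (andR (andR (andR (andR (andR (andR (andR (andR idT2all0))))))))))))))

end Vale.Agent.P154K
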